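import Crest.Agent.N250.R.Disc

/-!
# Row 250 (helper92): the abstract finite length argument behind `WeakStmt`
-/

set_option autoImplicit false
open Set Filter Topology

noncomputable section

namespace Crest.Agent.N250.Wk

/-- one step of the discrete Łojasiewicz inequality with memory -/
def Step (G : ℝ → ℝ) (Good : ℝ → ℝ → Prop) (θ C Q ε lam : ℝ) : Prop :=
  ∀ w, 0 ≤ w → w ≤ ε → Good lam w →
    G (Q * lam) ≤ C * (G lam - G (Q * lam) + w) ^ θ ∧
      Good (Q * lam) (w / 4 + C * (G lam - G (Q * lam)))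

/-- a property which holds along all ultrafilters converging to `z` holds near `z` -/
theorem unif_of_ultra {ι : Type} {J : ι → ℝ → ℝ} {z : ι → ℝ} {P : ℝ → Prop}
    (h : ∀ l : Ultrafilter ℝ, (l : Filter ℝ) ≤ atTop → (∀ i, Tendsto (J i) l (𝓝 (z i))) →
      ∀ᶠ lam in (l : Filter ℝ), P lam) :
    ∃ (I : Set ι) (δ L : ℝ), I.Finite ∧ 0 < δ ∧
      ∀ lam, L ≤ lam → (∀ i ∈ I, |J i lam - z i| < δ) → P lam := by
  have h1 : ∀ᶠ lam in atTop ⊓ comap (fun lam i => J i lam) (𝓝 z), P lam := by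
    refine Filter.mem_iff_ultrafilter.2 fun l hl => ?_
    exact h l (hl.trans inf_le_left) fun i =>
      tendsto_pi_nhds.1 (tendsto_iff_comap.2 (hl.trans inf_le_right)) i
  obtain ⟨A, hA, B, hB, hAB⟩ := mem_inf_iff_superset.1 h1
  obtain ⟨L, hL⟩ := mem_atTop_sets.1 hA
  obtain ⟨U, hU, hUB⟩ := mem_comap.1 hB
  rw [nhds_pi] at hU
  obtain ⟨I, hI, t, ht, hIt⟩ := mem_pi.1 hU
  have h2 : ∀ᶠ δ in 𝓝[>] (0 : ℝ), ∀ i ∈ I, Metric.ball (z i) δ ⊆ t i := by
    rw [eventually_all_finite hI]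
    intro i _
    obtain ⟨e, he, hb⟩ := Metric.mem_nhds_iff.1 (ht i)
    filter_upwards [Ioo_mem_nhdsGT he] with δ hδ
    exact (Metric.ball_subset_ball hδ.2.le).trans hb
  obtain ⟨δ, hδ, hδ0⟩ := (h2.and self_mem_nhdsWithin).exists
  exact ⟨I, δ, L, hI, hδ0, fun lam h1 h2 =>
    hAB ⟨hL lam h1, hUB (hIt fun i hi => hδ i hi (by
      rw [Metric.mem_ball, Real.dist_eq]; exact h2 i hi))⟩⟩

/-- **abstract finite length** -/
theorem abs_weak {ι : Type} {G : ℝ → ℝ} {J : ι → ℝ → ℝ} {z : ι → ℝ} {Good : ℝ → ℝ → Prop}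
    {b θ C Q ε : ℝ} {l₀ : Filter ℝ} [l₀.NeBot] (hl₀ : l₀ ≤ atTop) (hb : 0 < b) (hθ : 1 / 2 < θ)
    (hC : 0 < C) (hQ : 1 < Q) (hε : 0 < ε) (anti : ∀ x y, b ≤ x → x ≤ y → G y ≤ G x)
    (lim : Tendsto G atTop (𝓝 0))
    (speed : ∀ i, ∃ κ, 0 ≤ κ ∧ ∀ x y, b ≤ x → x ≤ y → y ≤ Q * x →
      |J i x - J i y| ≤ κ * ((G x - G y) + √(G x - G y)))
    (start : ∀ i, Tendsto (J i) l₀ (𝓝 (z i))) (good : ∀ η, 0 < η → ∀ᶠ lam in l₀, Good lam η)
    (step : ∀ l : Ultrafilter ℝ, (l : Filter ℝ) ≤ atTop → (∀ i, Tendsto (J i) l (𝓝 (z i))) →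
      ∀ᶠ lam in (l : Filter ℝ), Step G Good θ C Q ε lam) (i₀ : ι) :
    Tendsto (J i₀) atTop (𝓝 (z i₀)) := by
  obtain ⟨I, δ, L, hI, hδ, hS⟩ := unif_of_ultra step
  choose κ hκ0 hκ using speed
  obtain ⟨κ₁, hκ₁⟩ := (hI.image κ).bddAbove
  have hG0 : ∀ x, b ≤ x → 0 ≤ G x := fun x hx =>
    le_of_tendsto lim ((eventually_ge_atTop x).mono fun y hy => anti x y hx hy)
  obtain ⟨K, β, hK, hβ, hd⟩ := R.disc (C := C) (c := C) (q := min θ 1) hC.le hC.le
    (lt_min hθ (by norm_num)) (min_le_right _ _)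
  have hη : ∀ᶠ η in 𝓝[>] (0 : ℝ), (C + 2) * η < 1 ∧ (C + 2) * η < ε ∧
      |κ₁| * (η + K * ((C + 1) * η + η) ^ β) < δ / 2 := by
    have c1 : Tendsto (fun η : ℝ => (C + 2) * η) (𝓝 0) (𝓝 0) :=
      Continuous.tendsto' (by fun_prop) _ _ (by simp)
    have c2 : Tendsto (fun η : ℝ => |κ₁| * (η + K * ((C + 1) * η + η) ^ β)) (𝓝 0) (𝓝 0) :=
      Continuous.tendsto' (continuous_const.mul (continuous_id.add (continuous_const.mul
        (Continuous.rpow_const (by fun_prop) fun _ => Or.inr hβ.le)))) _ _ (by simp [hβ.ne'])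
    exact ((c1.eventually (gt_mem_nhds one_pos)).and ((c1.eventually (gt_mem_nhds hε)).and
      (c2.eventually (gt_mem_nhds (half_pos hδ))))).filter_mono nhdsWithin_le_nhds
  obtain ⟨η, ⟨hη1, hη2, hη3⟩, hη0⟩ := (hη.and self_mem_nhdsWithin).exists
  have hη0 : 0 < η := hη0
  have hst : ∀ᶠ lam in l₀, ∀ i ∈ I, |J i lam - z i| < δ / 2 := by
    rw [eventually_all_finite hI]
    intro i _
    exact (Metric.tendsto_nhds.1 (start i) _ (half_pos hδ)).mono fun _ h => by
      rwa [Real.dist_eq] at h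
  obtain ⟨x₀, hx1, hx2, hx3, hx4, hx5⟩ := (hst.and ((good η hη0).and
    (((eventually_ge_atTop b).and ((eventually_ge_atTop L).and
    (lim.eventually (gt_mem_nhds hη0)))).filter_mono hl₀))).exists
  have hx0 : 0 < x₀ := hb.trans_le hx3
  set x : ℕ → ℝ := fun k => Q ^ k * x₀ with hx
  have hxs : ∀ k, x (k + 1) = Q * x k := fun k => by simp only [hx]; ring
  have hx00 : x 0 = x₀ := by simp [hx]
  have hxge : ∀ k, x₀ ≤ x k := fun k =>
    le_mul_of_one_le_left hx0.le (one_le_pow₀ hQ.le)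
  have hxb : ∀ k, b ≤ x k := fun k => hx3.trans (hxge k)
  have hxle : ∀ k, x k ≤ x (k + 1) := fun k => by
    rw [hxs]
    exact le_mul_of_one_le_left (hb.le.trans (hxb k)) hQ.le
  set En : ℕ → ℝ := fun k => G (x k) with hEn
  have hE0 : ∀ k, 0 ≤ En k := fun k => hG0 _ (hxb k)
  have hEa : ∀ k, En (k + 1) ≤ En k := fun k => anti _ _ (hxb k) (hxle k)
  have hEη : En 0 ≤ η := by
    simp only [hEn, hx00]
    exact hx5.le
  let w : ℕ → ℝ := fun k => Nat.rec η (fun k v => v / 4 + C * (En k - En (k + 1))) k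
  have hw0 : w 0 = η := rfl
  have hws : ∀ k, w (k + 1) = w k / 4 + C * (En k - En (k + 1)) := fun _ => rfl
  have hwb : ∀ k, 0 ≤ w k ∧ w k ≤ η + C * (En 0 - En k) := by
    intro k
    induction k with
    | zero => simp [hw0, hη0.le]
    | succ k ih =>
      have := mul_nonneg hC.le (sub_nonneg.2 (hEa k))
      rw [hws]
      constructor <;> nlinarith [ih.1, ih.2]
  have hEle : ∀ k, En k ≤ η := fun k => (anti _ _ hx3 (hxge k)).trans hx5.le
  have hwle : ∀ k, w k ≤ (C + 1) * η := fun k => by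
    have := mul_le_mul_of_nonneg_left (show En 0 - En k ≤ η by linarith [hE0 k]) hC.le
    linarith [(hwb k).2]
  have hsum : ∀ n, (∀ k < n, En (k + 1) ≤ C * (En k - En (k + 1) + w k) ^ min θ 1) →
      ∑ k ∈ Finset.range n, √(En k - En (k + 1)) ≤ K * ((C + 1) * η + η) ^ β := by
    intro n hn
    refine (hd En w n (fun k _ => hE0 k) (fun k _ => (hwb k).1) (fun k _ => hEa k)
      (fun k _ => (hws k).le) hn (by rw [hw0]; nlinarith)).trans ?_
    rw [hw0]
    have := hE0 0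
    gcongr
  have hmove : ∀ i n, |J i (x 0) - J i (x n)| ≤
      κ i * ((En 0 - En n) + ∑ k ∈ Finset.range n, √(En k - En (k + 1))) := by
    intro i n
    induction n with
    | zero => simp
    | succ n ih =>
      have h1 := hκ i _ _ (hxb n) (hxle n) (hxs n).le
      have h2 := abs_sub_le (J i (x 0)) (J i (x n)) (J i (x (n + 1)))
      rw [Finset.sum_range_succ]
      simp only [hEn] at ih ⊢
      nlinarith
  have hind : ∀ n, Good (x n) (w n) ∧
      ∀ k < n, En (k + 1) ≤ C * (En k - En (k + 1) + w k) ^ min θ 1 := by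
    intro n
    induction n with
    | zero => exact ⟨by rw [hx00]; exact hx2, fun k hk => absurd hk (Nat.not_lt_zero k)⟩
    | succ n ih =>
      have h1 : Step G Good θ C Q ε (x n) := by
        refine hS _ (hx4.trans (hxge n)) fun i hi => ?_
        have a1 := hmove i n
        have a2 : κ i ≤ |κ₁| := (hκ₁ (mem_image_of_mem κ hi)).trans (le_abs_self _)
        have a3 : κ i * ((En 0 - En n) + ∑ k ∈ Finset.range n, √(En k - En (k + 1))) ≤
            |κ₁| * (η + K * ((C + 1) * η + η) ^ β) := by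
          refine mul_le_mul a2 (add_le_add (by linarith [hE0 n]) (hsum n ih.2)) ?_ (abs_nonneg _)
          have : En n ≤ En 0 := anti _ _ (hxb 0) (by rw [hx00]; exact hxge n)
          exact add_nonneg (by linarith) (Finset.sum_nonneg fun _ _ => Real.sqrt_nonneg _)
        have a4 := hx1 i hi
        have a5 := abs_sub_le (J i (x n)) (J i (x 0)) (z i)
        rw [abs_sub_comm (J i (x n)) (J i (x 0))] at a5
        rw [← hx00] at a4
        linarith
      have h2 := h1 (w n) (hwb n).1 (by linarith [hwle n]) ih.1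
      rw [← hxs] at h2
      refine ⟨h2.2, fun k hk => ?_⟩
      rcases Nat.lt_succ_iff_lt_or_eq.1 hk with h | rfl
      · exact ih.2 k h
      refine h2.1.trans (mul_le_mul_of_nonneg_left ?_ hC.le)
      have b0 : 0 ≤ En k - En (k + 1) + w k := by linarith [hEa k, (hwb k).1]
      have b1 : En k - En (k + 1) + w k ≤ 1 := by linarith [hEle k, hE0 (k + 1), hwle k]
      exact Real.rpow_le_rpow_of_exponent_ge' b0 b1 (le_min (by linarith) zero_le_one)
        (min_le_left _ _)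
  have hs1 : Summable fun k => √(En k - En (k + 1)) :=
    summable_of_sum_range_le (fun _ => Real.sqrt_nonneg _) fun n => hsum n (hind n).2
  have hs2 : Summable fun k => En k - En (k + 1) :=
    summable_of_sum_range_le (c := En 0) (fun k => sub_nonneg.2 (hEa k)) fun n => by
      rw [Finset.sum_range_sub']
      linarith [hE0 n]
  have hcau : CauchySeq fun k => J i₀ (x k) :=
    cauchySeq_of_dist_le_of_summable _ (fun k => by
      rw [Real.dist_eq]
      exact hκ i₀ _ _ (hxb k) (hxle k) (hxs k).le) ((hs2.add hs1).mul_left (κ i₀))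
  obtain ⟨y, hy⟩ := cauchySeq_tendsto_of_complete hcau
  have hlim : Tendsto (J i₀) atTop (𝓝 y) := by
    have t0 : Tendsto (fun k => κ i₀ * ((En k - En (k + 1)) + √(En k - En (k + 1)))) atTop (𝓝 0) :=
      ((hs2.add hs1).mul_left (κ i₀)).tendsto_atTop_zero
    rw [Metric.tendsto_atTop]
    intro e he
    obtain ⟨N, hN⟩ := eventually_atTop.1 ((Metric.tendsto_nhds.1 hy _ (half_pos he)).and
      (t0.eventually (gt_mem_nhds (half_pos he))))
    refine ⟨x N, fun lam hlam => ?_⟩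
    have hxN : 0 < x N := hb.trans_le (hxb N)
    obtain ⟨n, hn1, hn2⟩ := exists_nat_pow_near ((one_le_div hxN).2 hlam) hQ
    have e1 : ∀ j, x (N + j) = Q ^ j * x N := fun j => by simp only [hx]; ring
    have a1 : x (N + n) ≤ lam := by
      rw [e1]
      exact (le_div_iff₀ hxN).1 hn1
    have a2 : lam ≤ x (N + n + 1) := by
      rw [add_assoc, e1]
      exact ((div_lt_iff₀ hxN).1 hn2).le
    have a3 := hκ i₀ _ _ (hxb _) a1 (a2.trans (hxs _).le)
    have a4 : G (x (N + n + 1)) ≤ G lam := anti _ _ ((hxb _).trans a1) a2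
    have a5 : κ i₀ * ((G (x (N + n)) - G lam) + √(G (x (N + n)) - G lam)) ≤
        κ i₀ * ((En (N + n) - En (N + n + 1)) + √(En (N + n) - En (N + n + 1))) :=
      mul_le_mul_of_nonneg_left (add_le_add (by simp only [hEn]; linarith)
        (Real.sqrt_le_sqrt (by simp only [hEn]; linarith))) (hκ0 i₀)
    obtain ⟨b1, b2⟩ := hN (N + n) (Nat.le_add_right _ _)
    have := dist_triangle_left (J i₀ lam) y (J i₀ (x (N + n)))
    rw [Real.dist_eq (J i₀ (x (N + n))) (J i₀ lam)] at this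
    linarith
  rwa [tendsto_nhds_unique (start i₀) (hlim.mono_left hl₀)]

end Crest.Agent.N250.Wk

end
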