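import Crest.Agent.N250.Wk.Speed
import Crest.Agent.N250.Wk.Abs
import Crest.Agent.N250.Tr.Inst
import Crest.Agent.N250.T.Same
import Crest.Agent.N250.T.CFl
import Crest.Agent.N250.Br.Sc
import Crest.Agent.N250.E.Law

/-!
# Row 250 (helper92): `WeakStmt`
-/

set_option autoImplicit false
open MeasureTheory Set Filter Topology
open scoped ContDiff InnerProductSpace
open Crest.GeometryTopology.MCF

noncomputable section

namespace Crest.Agent.N250.Wk

variable {F S S' : Mv} {Λ a : ℝ} {m : Md} {f : E → ℝ}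

theorem exists_tf (hf : ContDiff ℝ ∞ f) (hc : HasCompactSupport f) :
    ∃ ρ B, 0 ≤ ρ ∧ Tf f ρ B := by
  obtain ⟨ρ, hρ, hs⟩ := hc.isCompact.isBounded.subset_ball_lt 0 (0 : E)
  obtain ⟨B₁, h1⟩ := hf.continuous.bounded_above_of_compact_support hc
  obtain ⟨B₂, h2⟩ := (hf.continuous_fderiv (by simp)).bounded_above_of_compact_support
    (hc.fderiv ℝ)
  refine ⟨ρ, max B₁ B₂, hρ.le, hf, fun y hy => ?_, fun y => (h1 y).trans (le_max_left _ _),
    fun y => (h2 y).trans (le_max_right _ _)⟩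
  refine image_eq_zero_of_notMem_tsupport fun h => ?_
  have := mem_ball_zero_iff.1 (hs h)
  linarith

theorem mu_scale (G : Mv) (f : E → ℝ) {σ : ℝ} (hσ : 0 < σ) :
    ∫ y, f y ∂G.mu (-σ ^ 2) = σ ^ 2 * ∫ y, f (σ • y) ∂(G.para 0 σ⁻¹).mu (-1) := by
  have h := Tr.para_int (F := G) 0 (inv_pos.2 hσ) (-1) f
  simp only [Prod.fst_zero, Prod.snd_zero, zero_add, inv_inv] at h
  rw [h, show -1 / σ⁻¹ ^ 2 = -σ ^ 2 by field_simp]
  field_simp

theorem Jr_eq (G : Mv) (f : E → ℝ) {r : ℝ} (hr : 0 < r) :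
    Jr G f r = ∫ y, f y ∂(G.para 0 r⁻¹).mu (-1) := by
  rw [Jr, mu_scale G _ hr, ← integral_const_mul]
  refine integral_congr_ae (Eventually.of_forall fun y => ?_)
  simp only [ss, neg_neg, Real.sqrt_sq hr.le, smul_smul, inv_mul_cancel₀ hr.ne', one_smul]
  field_simp

theorem para_para0 (G : Mv) {lam μ : ℝ} (hl : 0 < lam) (hμ : 0 < μ) :
    (G.para 0 lam).para 0 μ = G.para 0 (lam * μ) := by
  rw [Tr.para_para 0 hl G 0 hμ, Tr.paraS_map]
  simp [Prod.mk_zero_zero]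

theorem unr_mu (hS : S.Static) {σ : ℝ} (hσ : 0 < σ) :
    (S.unresc.para 0 σ⁻¹).mu (-1) = S.mu 0 := by
  have : (S.unresc.para 0 σ⁻¹).sl (-1) = S.sl 0 := by
    ext x
    have h := E.unr_mem' hS (σ • x) hσ
    rw [smul_smul, inv_mul_cancel₀ hσ.ne', one_smul] at h
    rw [← h]
    simp only [Mv.sl, Mv.para, mem_ofPred_eq, Prod.fst_zero, Prod.snd_zero, zero_add, inv_inv]
    rw [show -1 / σ⁻¹ ^ 2 = -σ ^ 2 by field_simp]
  rw [Mv.mu, this, Mv.mu]

theorem sh_fin (hS : Sh S Λ m) : IsFiniteMeasureOnCompacts (S.mu 0) := by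
  have := fin_mu hS.cl.fl.ar (-1)
  rwa [Mv.mu, E.unr_sl_one hS.shr.st] at this

theorem sub_of_int (hS : Sh S Λ m) (hS' : Sh S' Λ m)
    (h : ∀ f : E → ℝ, ContDiff ℝ ∞ f → HasCompactSupport f →
      ∫ y, f y ∂S.mu 0 = ∫ y, f y ∂S'.mu 0) : S.M ⊆ S'.M := by
  rintro ⟨x, t⟩ hx
  rw [hS.shr.st.mem] at hx
  rw [hS'.shr.st.mem]
  by_contra hx'
  have hcl : IsClosed (S'.sl 0) := hS'.shr.closed.preimage (Continuous.prodMk_left (0 : ℝ))
  obtain ⟨r, hr, hb⟩ := Metric.isOpen_iff.1 hcl.isOpen_compl x hx'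
  let φ : ContDiffBump x := ⟨r / 2, r, half_pos hr, half_lt_self hr⟩
  have := sh_fin hS
  have h1 : ∫ y, φ y ∂S'.mu 0 = 0 := by
    refine integral_eq_zero_of_ae ?_
    filter_upwards [ae_restrict_mem hcl.measurableSet] with y hy
    refine φ.zero_of_le_dist (le_of_not_gt fun hd => hb (Metric.mem_ball.2 hd) hy)
  have h2 : 0 < ∫ y, φ y ∂S.mu 0 := by
    rw [integral_pos_iff_support_of_nonneg φ.nonneg'
      (φ.continuous.integrable_of_hasCompactSupport φ.hasCompactSupport), φ.support_eq]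
    exact hS.shr.reg.mu_pos hx (Metric.ball_mem_nhds x φ.rOut_pos)
  rw [h φ φ.contDiff φ.hasCompactSupport, h1] at h2
  exact lt_irrefl _ h2

/-- weak convergence at time `-1` against smooth functions gives `WConv` -/
theorem wconv_of (hF : F.AR Λ) (hS : Sh S Λ m)
    (h : ∀ f : E → ℝ, ContDiff ℝ ∞ f → HasCompactSupport f →
      Tendsto (fun lam => ∫ y, f y ∂(F.para 0 lam).mu (-1)) atTop (𝓝 (∫ y, f y ∂S.mu 0))) :
    WConv F S := by
  intro f hf hc a b hab hb ε hε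
  have := sh_fin hS
  obtain ⟨ρ, hρ, hs⟩ := hc.isCompact.isBounded.subset_ball_lt 0 (0 : E)
  have hb0 : 0 < √(-b) := Real.sqrt_pos.2 (by linarith)
  have ha0 : 0 < √(-a) := Real.sqrt_pos.2 (by linarith)
  have key := Br.unif_of_weak (l := atTop) (fun lam => (F.para 0 lam).mu (-1)) (S.mu 0)
    ((eventually_gt_atTop 0).mono fun lam hl => fin_mu (Tr.para_ar 0 hl hF) _) h
    (fun q => q.1 ^ 2 * f (q.1 • q.2)) (by fun_prop) (K := Icc √(-b) √(-a)) isCompact_Icc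
    (R := ρ / √(-b)) (by positivity) (fun s hs' y hy => by
      have h0 : f (s • y) = 0 := by
        refine image_eq_zero_of_notMem_tsupport fun h => ?_
        have h1 := mem_ball_zero_iff.1 (hs h)
        rw [norm_smul, Real.norm_eq_abs, abs_of_pos (hb0.trans_le hs'.1)] at h1
        rw [div_le_iff₀ hb0] at hy
        nlinarith [hs'.1, norm_nonneg y]
      simp [h0]) hε
  obtain ⟨L, hL⟩ := eventually_atTop.1 key
  refine ⟨max L 1 * √(-a), fun lam hlam s hs' => ?_⟩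
  have hs0 : 0 < -s := by linarith [hs'.2]
  set σ := √(-s) with hσ
  have hσ0 : 0 < σ := Real.sqrt_pos.2 hs0
  have hσs : s = -σ ^ 2 := by rw [hσ, Real.sq_sqrt hs0.le, neg_neg]
  have hσ1 : √(-b) ≤ σ := Real.sqrt_le_sqrt (by linarith [hs'.2])
  have hσ2 : σ ≤ √(-a) := Real.sqrt_le_sqrt (by linarith [hs'.1])
  have hm : 0 < max L 1 := lt_max_of_lt_right one_pos
  have hl0 : 0 < lam := lt_of_lt_of_le (by positivity) hlam
  have hge : L ≤ lam * σ⁻¹ := by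
    rw [← div_eq_mul_inv, le_div_iff₀ hσ0]
    calc L * σ ≤ max L 1 * √(-a) := mul_le_mul (le_max_left _ _) hσ2 hσ0.le hm.le
      _ ≤ lam := hlam
  have := hL _ hge σ ⟨hσ1, hσ2⟩
  rw [hσs, mu_scale _ f hσ0, mu_scale _ f hσ0, para_para0 F hl0 (inv_pos.2 hσ0),
    unr_mu hS.shr.st hσ0]
  simpa only [integral_const_mul] using this

theorem ev_mem (ha : a < 0) {c : ℝ} (hc : 0 < c) :
    ∀ᶠ lam in atTop, -c / lam ^ 2 ∈ Ioo a 0 := by
  have t1 : Tendsto (fun lam : ℝ => -c / lam ^ 2) atTop (𝓝 0) :=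
    tendsto_const_nhds.div_atTop (tendsto_pow_atTop two_ne_zero)
  filter_upwards [t1.eventually (lt_mem_nhds ha), eventually_gt_atTop 0] with lam h1 h2
  exact ⟨h1, div_neg_of_neg_of_pos (by linarith) (by positivity)⟩

theorem fg_para (F : Mv) {lam : ℝ} (hl : 0 < lam) (r : ℝ) :
    (F.para 0 lam).Fg 0 r = F.Fg 0 (r / lam) := by
  rw [Tr.para_Fg 0 hl]
  simp [Prod.mk_zero_zero]

/-- the Gaussian density exists -/
theorem exists_dens (hH : HuiskenS) (ha : a < 0) (hF : Cl F (Ioo a 0) Λ m) :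
    ∃ Θ : ℝ, ∀ K, 0 < K → Tendsto (fun lam => F.Fg 0 (K / lam)) atTop (𝓝 Θ) := by
  have hr0 : 0 < √(-a) := Real.sqrt_pos.2 (by linarith)
  have hmono : MonotoneOn (F.Fg 0) (Ioo 0 √(-a)) := fun r hr s hs hrs =>
    Lim.fg_mono hH hF.tm hF.fl 0 hr.1 hrs ⟨by
      have := (Real.lt_sqrt hs.1.le).1 hs.2
      linarith, by
      have := pow_pos hs.1 2
      linarith⟩
  have hbdd : BddBelow (F.Fg 0 '' Ioo 0 √(-a)) := by
    refine ⟨0, ?_⟩
    rintro _ ⟨r, hr, rfl⟩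
    exact E.gA_nonneg _ _ (pow_pos hr.1 2)
  have h1 := hmono.tendsto_nhdsWithin_Ioo_right (nonempty_Ioo.2 hr0) hbdd
  refine ⟨_, fun K hK => h1.comp ?_⟩
  refine tendsto_nhdsWithin_iff.2 ⟨tendsto_const_nhds.div_atTop tendsto_id, ?_⟩
  filter_upwards [eventually_gt_atTop 0] with lam hl
  exact div_pos hK hl

theorem ev_cl (hF : Cl F (Ioo a 0) Λ m) :
    ∀ᶠ lam in atTop, Cl (F.para 0 lam) {t | t / lam ^ 2 ∈ Ioo a 0} Λ m :=
  (eventually_gt_atTop 0).mono fun lam hl => Tr.paraStmt F _ Λ m 0 lam hl hF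

/-- tangent flows along ultrafilters -/
theorem exists_lim (hL : LimStmt) (hH : HuiskenS) (ha : a < 0) (hF : Cl F (Ioo a 0) Λ m)
    (l : Ultrafilter ℝ) (hl : (l : Filter ℝ) ≤ atTop) :
    ∃ S : Mv, Sh S Λ m ∧ Conv l (fun lam => F.para 0 lam) S.unresc NT := by
  obtain ⟨Θ, hΘ⟩ := exists_dens hH ha hF
  refine hL ℝ l _ (fun lam => {t | t / lam ^ 2 ∈ Ioo a 0}) Λ m ((ev_cl hF).filter_mono hl)
    (fun t ht => ?_) fun K hK => ?_
  · have := (ev_mem ha (c := -t) (by linarith)).filter_mono hl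
    simpa only [neg_neg, mem_ofPred_eq] using this
  · have hK0 : 0 < K := by linarith
    have t1 := (hΘ K hK0).sub (hΘ K⁻¹ (inv_pos.2 hK0))
    rw [sub_self] at t1
    refine (t1.congr' ?_).mono_left hl
    filter_upwards [eventually_gt_atTop 0] with lam h
    rw [fg_para F h, fg_para F h]

theorem fg_lim (hFl : ConvFlS) (hF : Cl F (Ioo a 0) Λ m) (hS : Sh S Λ m)
    {l : Filter ℝ} [l.NeBot] (hl : l ≤ atTop)
    (hc : Conv l (fun lam => F.para 0 lam) S.unresc NT) :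
    Tendsto (fun lam => F.Fg 0 (2 / lam)) l (𝓝 (S.Fs 0 0 1)) := by
  have t1 := Lim.fg_tendsto hFl (((ev_cl hF).filter_mono hl).mono fun _ h => h.fl) hc
    (fun p hp => ⟨trivial, hp.1⟩) 0 two_pos
  rw [E.unr_Fg hS.shr.st 0 two_pos, smul_zero, ← E.Fs_eq] at t1
  refine t1.congr' ?_
  filter_upwards [(eventually_gt_atTop 0).filter_mono hl] with lam h
  exact fg_para F h 2

theorem jr_lim (hμ : ConvMuS) (hS : S.Static) {l : Filter ℝ} (hl : l ≤ atTop)
    (hc : Conv l (fun lam => F.para 0 lam) S.unresc NT) {ρ B : ℝ} (hf : Tf f ρ B) :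
    Tendsto (fun lam => Jr F f (2 / lam)) l (𝓝 (∫ y, f y ∂S.mu 0)) := by
  have hg : Continuous fun q : CFl.PNA => ss f (q.1, -2 ^ 2) := by
    have := hf.sm.continuous
    simp only [ss]
    fun_prop
  have t1 := CFl.conv_sp hμ isOpen_Iio hc hg (y := 0) (b := (ρ + 1) * √(- -2 ^ 2))
    (fun q hq => (hf.ss_zero (p := (q.1, -2 ^ 2)) (by norm_num)
      (by rwa [dist_zero_right] at hq)).1) (tk := fun _ => -2 ^ 2) (t := -2 ^ 2)
    (by simp) tendsto_const_nhds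
  have e : ∫ x, ss f ((CFl.jt S.unresc (-2 ^ 2) x).1, -2 ^ 2) ∂S.unresc.mu (-2 ^ 2) =
      ∫ y, f y ∂S.mu 0 := by
    rw [← unr_mu hS two_pos, ← Jr_eq _ _ two_pos]
    rfl
  rw [e] at t1
  refine t1.congr' ?_
  filter_upwards [(eventually_gt_atTop 0).filter_mono hl] with lam h
  change Jr (F.para 0 lam) f 2 = _
  rw [Jr_eq _ _ two_pos, Jr_eq _ _ (div_pos two_pos h), para_para0 F h (inv_pos.2 two_pos),
    inv_div, div_eq_mul_inv]

theorem weakStmt_of (hL : LimStmt) (hT : TransS) (hD : DivS) (hH : HuiskenS) (hFl : ConvFlS)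
    (hμ : ConvMuS) : WeakStmt := by
  intro F a Λ m ha hF hLS
  have hl₀ : ((Ultrafilter.of (atTop : Filter ℝ) : Ultrafilter ℝ) : Filter ℝ) ≤ atTop :=
    Ultrafilter.of_le _
  obtain ⟨S, hS, hc⟩ := exists_lim hL hH ha hF _ hl₀
  obtain ⟨θ, C, Q, ε, Good, hθ, hC, hQ, hε, hls⟩ := hLS S hS
  refine ⟨S, hS.shr, wconv_of hF.fl.ar hS fun f hf hcs => ?_, _, hl₀, hc⟩
  obtain ⟨Θ, hΘ⟩ := exists_dens hH ha hF
  have hΘS : Θ = S.Fs 0 0 1 :=
    tendsto_nhds_unique ((hΘ 2 two_pos).mono_left hl₀) (fg_lim hFl hF hS hl₀ hc)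
  obtain ⟨b₀, hb₀⟩ := eventually_atTop.1 (ev_mem ha (c := 2 ^ 2) (by norm_num))
  have hb : 0 < max b₀ 1 := lt_max_of_lt_right one_pos
  have hmem : ∀ x, max b₀ 1 ≤ x → -(2 / x) ^ 2 ∈ Ioo a 0 := fun x hx => by
    rw [div_pow, ← neg_div]
    exact hb₀ x ((le_max_left _ _).trans hx)
  have key := abs_weak (ι := {f : E → ℝ // ContDiff ℝ ∞ f ∧ HasCompactSupport f})
    (G := fun lam => F.Fg 0 (2 / lam) - S.Fs 0 0 1) (J := fun f lam => Jr F f.1 (2 / lam))
    (z := fun f => ∫ y, f.1 y ∂S.mu 0) (Good := Good) hl₀ hb hθ hC hQ hε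
    (fun x y hx hxy => sub_le_sub_right (Lim.fg_mono hH hF.tm hF.fl 0
      (div_pos two_pos (hb.trans_le (hx.trans hxy)))
      (div_le_div_of_nonneg_left zero_le_two (hb.trans_le hx) hxy) (hmem x hx)) _)
    (by simpa only [hΘS, sub_self] using (hΘ 2 two_pos).sub_const (S.Fs 0 0 1))
    (fun i => by
      obtain ⟨ρ, B, hρ, hi⟩ := exists_tf i.2.1 i.2.2
      refine ⟨cS ρ Λ Q * B, mul_nonneg (cS_pos _ _ _).le hi.nonneg, fun x y hx hxy hyx => ?_⟩
      have hx0 := hb.trans_le hx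
      have hy0 := hx0.trans_le hxy
      rw [abs_sub_comm, sub_sub_sub_cancel_right]
      refine speed hT hD hH hF.tm hF.fl hi hρ (div_pos two_pos hy0)
        (div_le_div_of_nonneg_left zero_le_two hx0 hxy) ?_ (hmem x hx)
      rw [← mul_div_assoc, div_le_div_iff₀ hx0 hy0]
      linarith)
    (fun i => by
      obtain ⟨ρ, B, -, hi⟩ := exists_tf i.2.1 i.2.2
      exact jr_lim hμ hS.shr.st hl₀ hc hi)
    (hls _ S hl₀ hS rfl hc).1
    (fun l hl ht => by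
      obtain ⟨S', hS', hc'⟩ := exists_lim hL hH ha hF l hl
      have he : ∀ f : E → ℝ, ContDiff ℝ ∞ f → HasCompactSupport f →
          ∫ y, f y ∂S.mu 0 = ∫ y, f y ∂S'.mu 0 := fun f h1 h2 => by
        obtain ⟨ρ, B, -, hi⟩ := exists_tf h1 h2
        exact tendsto_nhds_unique (ht ⟨f, h1, h2⟩) (jr_lim hμ hS'.shr.st hl hc' hi)
      have hM : S'.M = S.M :=
        (sub_of_int hS' hS fun f h1 h2 => (he f h1 h2).symm).antisymm (sub_of_int hS hS' he)
      filter_upwards [(hls l S' hl hS' hM hc').2] with lam h w h1 h2 h3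
      simpa only [sub_sub_sub_cancel_right] using h w h1 h2 h3)
    ⟨f, hf, hcs⟩
  have t2 : Tendsto (fun lam : ℝ => 2 * lam) atTop atTop := tendsto_id.const_mul_atTop two_pos
  refine (key.comp t2).congr' ?_
  filter_upwards [eventually_gt_atTop 0] with lam h
  simp only [Function.comp]
  rw [Jr_eq _ _ (by positivity), show (2 / (2 * lam))⁻¹ = lam by field_simp]

end Crest.Agent.N250.Wk

end
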