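import Crest.Agent.N250.Wk.Speed0

/-!
# Row 250 (helper92): speed of self-similar test integrals against the drop of the Gaussian area
-/

set_option autoImplicit false
open MeasureTheory Set Filter Topology
open scoped ContDiff InnerProductSpace
open Crest.GeometryTopology.MCF

noncomputable section

namespace Crest.Agent.N250.Wk

variable {F : Mv} {I : Set ℝ} {Λ ρ B : ℝ} {f : E → ℝ}

/-- smooth test function, supported in `B(0, ρ)`, with `C¹` norm at most `B` -/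
structure Tf (f : E → ℝ) (ρ B : ℝ) : Prop where
  sm : ContDiff ℝ ∞ f
  zero : ∀ y, ρ ≤ ‖y‖ → f y = 0
  le : ∀ y, |f y| ≤ B
  dle : ∀ y, ‖fderiv ℝ f y‖ ≤ B

theorem Tf.dzero (h : Tf f ρ B) {y : E} (hy : ρ + 1 ≤ ‖y‖) : fderiv ℝ f y = 0 := by
  have : f =ᶠ[𝓝 y] fun _ => 0 := by
    filter_upwards [(continuous_norm.tendsto y).eventually
      (lt_mem_nhds (show ρ < ‖y‖ by linarith))] with z hz
    exact h.zero z hz.le
  rw [this.fderiv_eq]
  simp

theorem Tf.nonneg (h : Tf f ρ B) : 0 ≤ B := (abs_nonneg _).trans (h.le 0)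

theorem le_norm_sc {p : ST} (hp : p.2 < 0) {c : ℝ} (h : c * √(-p.2) ≤ ‖p.1‖) :
    c ≤ ‖(√(-p.2))⁻¹ • p.1‖ := by
  have hs : 0 < √(-p.2) := Real.sqrt_pos.2 (by linarith)
  rw [norm_smul, norm_inv, Real.norm_eq_abs, abs_of_pos hs, le_inv_mul_iff₀ hs]
  linarith

theorem Tf.ss_zero (h : Tf f ρ B) {p : ST} (hp : p.2 < 0) (hx : (ρ + 1) * √(-p.2) ≤ ‖p.1‖) :
    ss f p = 0 ∧ ∀ v, fderiv ℝ (ss f) p (v, 0) = 0 := by
  have := le_norm_sc hp hx
  refine ⟨by rw [ss, h.zero _ (by linarith), zero_div], fun v => ?_⟩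
  rw [ss_sp h.sm hp, h.dzero this]
  simp

theorem cont_H (hF : F.Reg) : ContinuousOn F.H F.M := by
  have : F.H = fun p => ∑ a, F.A a a p := by
    funext p
    simp [Mv.H, Finset.sum_apply]
  rw [this]
  exact continuousOn_finsetSum _ fun a _ => (Tr.sm_D hF (Tr.sm_nu hF a) a).continuousOn

theorem cont_dev (hF : F.Reg) (hn : ∀ p ∈ F.M, p.2 < 0) : ContinuousOn (F.dev 0) F.M := by
  refine (cont_H hF).sub (ContinuousOn.div ?_ (by fun_prop) fun p hp => ?_)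
  · exact ContinuousOn.inner (𝕜 := ℝ) (f := fun p : ST => p.1 - (0 : ST).1) (by fun_prop)
      (Tr.sm_n hF).continuousOn
  · have := hn p hp
    simp only [Prod.snd_zero]
    linarith

theorem cont_gn (hF : F.Reg) (hn : ∀ p ∈ F.M, p.2 < 0) (hf : ContDiff ℝ ∞ f) :
    ContinuousOn (gn F f) F.M := by
  refine ContinuousOn.clm_apply (fun p hp => ?_)
    ((Tr.sm_n hF).continuousOn.prodMk continuousOn_const)
  exact ((ss_at hf (hn p hp)).continuousAt_fderiv (by simp)).continuousWithinAt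

/-- the integrand of the first variation -/
def uu (F : Mv) (f : E → ℝ) (p : ST) : ℝ := -(F.dev 0 p * (gn F f p + ss f p * F.H p))

/-- first variation of the self-similar test integral -/
theorem ss_deriv (hT : TransS) (hD : DivS) (hI : Tm I) (hF : Fl F I Λ) (hf : Tf f ρ B) {t : ℝ}
    (ht : t ∈ I) : HasDerivAt (fun s => ∫ x, ss f (x, s) ∂F.mu s)
      (∫ x, uu F f (x, t) ∂F.mu t) t := by
  have hn : ∀ p ∈ F.M, p.2 < 0 := fun p hp => hI.neg _ (hF.time p hp)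
  have ht0 := hI.neg t ht
  have hR := hF.mcf.1
  obtain ⟨δ, hδ, hb⟩ := Metric.isOpen_iff.1 hI.isOpen t ht
  have ha : t - δ / 2 ∈ I := hb (by
    rw [Metric.mem_ball, Real.dist_eq, abs_lt]; constructor <;> linarith)
  have hab : Icc (t - δ / 2) (t / 2) ⊆ I := fun s hs => hI.up _ ha s hs.1 (by linarith [hs.2])
  have hsm : F.Sm (ss f) := fun p hp => (ss_at hf.sm (hn p hp)).contDiffWithinAt
  have hsx : ∀ a, F.Sm (sx f a) := fun a p hp => (sx_at hf.sm a (hn p hp)).contDiffWithinAt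
  have hcs : F.CS (ss f) (Ioo (t - δ / 2) (t / 2)) := by
    refine cs_of hF (R := |ρ + 1| * √(-(t - δ / 2))) hab Ioo_subset_Icc_self fun p hp h1 h2 =>
      (hf.ss_zero (hn p hp) (le_trans ?_ h2)).1
    exact mul_le_mul (le_abs_self _) (Real.sqrt_le_sqrt (by linarith [h1.1])) (Real.sqrt_nonneg _)
      (abs_nonneg _)
  have h1 := hT F hR (ss f) _ isOpen_Ioo hsm hcs t ⟨by linarith, by linarith⟩
  refine h1.congr_deriv ?_
  have hz : ∀ x : E, (ρ + 1) * √(-t) ≤ ‖x‖ →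
      ss f (x, t) = 0 ∧ ∀ v, fderiv ℝ (ss f) (x, t) (v, 0) = 0 :=
    fun x hx => hf.ss_zero (p := (x, t)) ht0 hx
  have iu : Integrable (fun x => uu F f (x, t)) (F.mu t) := by
    refine intg hF (R := (ρ + 1) * √(-t)) (((cont_dev hR hn).mul ((cont_gn hR hn hf.sm).add
      (hsm.continuousOn.mul (cont_H hR)))).neg) fun x _ hx => ?_
    simp [gn, (hz x hx).1, (hz x hx).2]
  have i1 : ∀ a, Integrable (fun x => F.D a (sx f a) (x, t)) (F.mu t) := fun a => by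
    refine intg hF (R := (ρ + 1) * √(-t)) (Tr.sm_D hR (hsx a) a).continuousOn fun x hM hx => ?_
    rw [D_sx hR hf.sm a hM ht0, (hz x hx).1, (hz x hx).2]
    simp
  have i2 : ∀ a, Integrable (fun x => sx f a (x, t) * F.H (x, t) * F.nu a (x, t)) (F.mu t) :=
    fun a => by
    refine intg hF (R := (ρ + 1) * √(-t)) (u := fun p => sx f a p * F.H p * F.nu a p)
      (((hsx a).continuousOn.mul (cont_H hR)).mul (Tr.sm_nu hR a).continuousOn) fun x _ hx => ?_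
    simp [sx, (hz x hx).1]
  have d0 : ∀ a, ∫ x, (F.D a (sx f a) (x, t) - sx f a (x, t) * F.H (x, t) * F.nu a (x, t))
      ∂F.mu t = 0 := fun a => by
    rw [integral_sub (i1 a) (i2 a), sub_eq_zero]
    refine hD F hR (sx f a) t a (hsx a) (cs_of hF (a := t) (b := t) (R := (ρ + 1) * √(-t))
      (by simpa using ht) (by simp) fun p hp h1 h2 => ?_)
    rw [mem_singleton_iff] at h1
    rw [sx, (hf.ss_zero (hn p hp) (by rwa [h1])).1, zero_mul]
  calc ∫ x, (F.Dt (ss f) (x, t) + ss f (x, t) * F.V (x, t) * F.H (x, t)) ∂F.mu t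
      = ∫ x, (uu F f (x, t) + (2 * -t)⁻¹ * ∑ a, (F.D a (sx f a) (x, t) -
          sx f a (x, t) * F.H (x, t) * F.nu a (x, t))) ∂F.mu t := by
        refine integral_congr_ae ?_
        filter_upwards [ae_sl hF t] with x hx
        exact split hF.mcf hf.sm hx ht0
    _ = ∫ x, uu F f (x, t) ∂F.mu t := by
        have i3 : ∀ a, Integrable (fun x => F.D a (sx f a) (x, t) -
            sx f a (x, t) * F.H (x, t) * F.nu a (x, t)) (F.mu t) := fun a => (i1 a).sub (i2 a)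
        rw [integral_add iu ((integrable_finsetSum _ fun a _ => i3 a).const_mul _),
          integral_const_mul, integral_finsetSum _ fun a _ => i3 a]
        simp only [d0, Finset.sum_const_zero, mul_zero, add_zero]

/-- the constant `4 π e^{(ρ+1)²/4}` -/
def cG (ρ : ℝ) : ℝ := 4 * Real.pi * Real.exp ((ρ + 1) ^ 2 / 4)

theorem cG_pos (ρ : ℝ) : 0 < cG ρ := by
  have := Real.pi_pos
  unfold cG
  positivity

/-- pointwise bound of the integrand -/
theorem uu_le (hR : F.Reg) (hf : Tf f ρ B) (hρ : 0 ≤ ρ) {p : ST} (hM : p ∈ F.M) (hp : p.2 < 0)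
    {ε : ℝ} (hε : 0 < ε) : |uu F f p| ≤ B * (1 + ε⁻¹) * cG ρ * (F.dev 0 p ^ 2 * Phi 0 p) +
      (Metric.ball (0 : E) ((ρ + 1) * √(-p.2))).indicator
        (fun _ => B * ε * (ρ + 2) ^ 2 / (-p.2) ^ 2) p.1 := by
  have hB := hf.nonneg
  have hτ : 0 < -p.2 := by linarith
  have hcG := cG_pos ρ
  have hpi := Real.pi_pos
  have hΦ : 0 < Phi 0 p := by
    simp only [Phi, gau, Prod.snd_zero, zero_sub]
    positivity
  by_cases hx : (ρ + 1) * √(-p.2) ≤ ‖p.1‖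
  · have hz := hf.ss_zero hp hx
    rw [indicator_of_notMem (by simpa using hx)]
    simp only [uu, gn, hz.1, hz.2]
    simp only [zero_mul, add_zero, mul_zero, neg_zero, abs_zero]
    positivity
  rw [not_le] at hx
  rw [indicator_of_mem (by simpa using hx)]
  set s := √(-p.2) with hs
  have hs0 : 0 < s := Real.sqrt_pos.2 hτ
  have hss : -p.2 = s ^ 2 := (Real.sq_sqrt hτ.le).symm
  have hn := Tr.n_unit hR hM
  have b1 : |ss f p| ≤ B / s ^ 2 := by
    rw [ss, abs_div, abs_of_pos hτ, hss]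
    exact div_le_div_of_nonneg_right (hf.le _) (by positivity)
  have b2 : |gn F f p| ≤ B / s ^ 3 := by
    rw [gn, ss_sp hf.sm hp, abs_div, abs_of_pos hτ, abs_mul, ← hs, hss, abs_of_pos (inv_pos.2 hs0)]
    have : |fderiv ℝ f (s⁻¹ • p.1) (F.n p)| ≤ B := by
      have := (fderiv ℝ f (s⁻¹ • p.1)).le_opNorm (F.n p)
      rw [hn, mul_one, Real.norm_eq_abs] at this
      exact this.trans (hf.dle _)
    calc s⁻¹ * |fderiv ℝ f (s⁻¹ • p.1) (F.n p)| / s ^ 2 ≤ s⁻¹ * B / s ^ 2 := by gcongr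
      _ = B / s ^ 3 := by field_simp
  have b3 : |F.xn 0 p| ≤ (ρ + 1) * s := by
    have := abs_real_inner_le_norm (p.1 - 0) (F.n p)
    rw [hn, mul_one, sub_zero p.1] at this
    simp only [Mv.xn, sub_zero]
    linarith
  have b4 : 1 / s ^ 2 ≤ cG ρ * Phi 0 p := by
    have e : Phi 0 p = (4 * Real.pi * s ^ 2)⁻¹ * Real.exp (-‖p.1‖ ^ 2 / (4 * s ^ 2)) := by
      simp only [Phi, gau, Prod.snd_zero, Prod.fst_zero, zero_sub, sub_zero, hss]
    have h1 : ‖p.1‖ ^ 2 ≤ ((ρ + 1) * s) ^ 2 := pow_le_pow_left₀ (norm_nonneg _) hx.le 2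
    have h2 : 1 ≤ Real.exp ((ρ + 1) ^ 2 / 4) * Real.exp (-‖p.1‖ ^ 2 / (4 * s ^ 2)) := by
      rw [← Real.exp_add]
      refine Real.one_le_exp ?_
      rw [neg_div, ← sub_eq_add_neg, sub_nonneg, div_le_iff₀ (by positivity)]
      nlinarith
    calc 1 / s ^ 2 ≤ (Real.exp ((ρ + 1) ^ 2 / 4) * Real.exp (-‖p.1‖ ^ 2 / (4 * s ^ 2))) / s ^ 2 := by
          gcongr
      _ = cG ρ * Phi 0 p := by
          rw [e, cG]
          field_simp
  set d := F.dev 0 p with hd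
  have eH : F.H p = d + F.xn 0 p / (2 * s ^ 2) := by
    simp only [hd, Mv.dev, Prod.fst_zero, Prod.snd_zero, zero_sub, hss]
    ring
  have b5 : |gn F f p + ss f p * (F.xn 0 p / (2 * s ^ 2))| ≤ B * (ρ + 2) / s ^ 3 := by
    have h1 : |ss f p * (F.xn 0 p / (2 * s ^ 2))| ≤ B / s ^ 2 * ((ρ + 1) * s / (2 * s ^ 2)) := by
      rw [abs_mul, abs_div, abs_of_pos (show (0 : ℝ) < 2 * s ^ 2 by positivity)]
      gcongr
    have h2 : B / s ^ 2 * ((ρ + 1) * s / (2 * s ^ 2)) ≤ B * (ρ + 1) / s ^ 3 := by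
      rw [show B / s ^ 2 * ((ρ + 1) * s / (2 * s ^ 2)) = B * (ρ + 1) / s ^ 3 / 2 by field_simp]
      have : 0 ≤ B * (ρ + 1) / s ^ 3 := by positivity
      linarith
    calc _ ≤ |gn F f p| + |ss f p * (F.xn 0 p / (2 * s ^ 2))| := abs_add_le _ _
      _ ≤ B / s ^ 3 + B * (ρ + 1) / s ^ 3 := by linarith
      _ = B * (ρ + 2) / s ^ 3 := by ring
  have e1 : uu F f p = -(d * (gn F f p + ss f p * (F.xn 0 p / (2 * s ^ 2))) + ss f p * d ^ 2) := by
    rw [uu, ← hd, eH]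
    ring
  have b6 : |uu F f p| ≤ |d| * (B * (ρ + 2) / s ^ 3) + B / s ^ 2 * d ^ 2 := by
    rw [e1, abs_neg]
    refine (abs_add_le _ _).trans (add_le_add ?_ ?_)
    · rw [abs_mul]
      gcongr
    · rw [abs_mul, abs_of_nonneg (sq_nonneg d)]
      gcongr
  have b7 : |d| * ((ρ + 2) / s ^ 3) ≤ ε⁻¹ * (d ^ 2 / s ^ 2) + ε * (ρ + 2) ^ 2 / (s ^ 2) ^ 2 := by
    have h := sq_nonneg (|d| / s - ε * ((ρ + 2) / s ^ 2))
    have e2 : ε⁻¹ * (d ^ 2 / s ^ 2) + ε * (ρ + 2) ^ 2 / (s ^ 2) ^ 2 - 2 * (|d| * ((ρ + 2) / s ^ 3)) =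
        ε⁻¹ * (|d| / s - ε * ((ρ + 2) / s ^ 2)) ^ 2 := by
      rw [← sq_abs d]
      field_simp
      ring
    have h3 : 0 ≤ |d| * ((ρ + 2) / s ^ 3) := by positivity
    have h4 : 0 ≤ ε⁻¹ * (|d| / s - ε * ((ρ + 2) / s ^ 2)) ^ 2 := by positivity
    linarith
  have b8 : d ^ 2 / s ^ 2 ≤ cG ρ * (d ^ 2 * Phi 0 p) := by
    calc d ^ 2 / s ^ 2 = d ^ 2 * (1 / s ^ 2) := by ring
      _ ≤ d ^ 2 * (cG ρ * Phi 0 p) := by gcongr
      _ = _ := by ring
  rw [hss]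
  calc |uu F f p| ≤ B * (|d| * ((ρ + 2) / s ^ 3)) + B * (d ^ 2 / s ^ 2) := by
        refine b6.trans (le_of_eq ?_)
        ring
    _ ≤ B * (ε⁻¹ * (d ^ 2 / s ^ 2) + ε * (ρ + 2) ^ 2 / (s ^ 2) ^ 2) + B * (d ^ 2 / s ^ 2) := by
        gcongr
    _ = B * (1 + ε⁻¹) * (d ^ 2 / s ^ 2) + B * ε * (ρ + 2) ^ 2 / (s ^ 2) ^ 2 := by ring
    _ ≤ B * (1 + ε⁻¹) * (cG ρ * (d ^ 2 * Phi 0 p)) + B * ε * (ρ + 2) ^ 2 / (s ^ 2) ^ 2 := by
        gcongr
    _ = _ := by ring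

/-- slice bound -/
theorem uu_int_le (hF : Fl F I Λ) (hf : Tf f ρ B) (hρ : 0 ≤ ρ) {t : ℝ} (ht : t < 0)
    {ε : ℝ} (hε : 0 < ε) : ‖∫ x, uu F f (x, t) ∂F.mu t‖ₑ ≤
      ENNReal.ofReal (B * (1 + ε⁻¹) * cG ρ) *
        ∫⁻ x, ENNReal.ofReal (F.dev 0 (x, t) ^ 2 * Phi 0 (x, t)) ∂F.mu t +
      ENNReal.ofReal (B * ε * (ρ + 2) ^ 4 * |Λ| / (-t)) := by
  have hB := hf.nonneg
  have hcG := cG_pos ρ
  have hτ : 0 < -t := by linarith
  have hs0 : 0 < √(-t) := Real.sqrt_pos.2 hτ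
  refine (enorm_integral_le_lintegral_enorm _).trans ?_
  calc ∫⁻ x, ‖uu F f (x, t)‖ₑ ∂F.mu t
      ≤ ∫⁻ x, (ENNReal.ofReal (B * (1 + ε⁻¹) * cG ρ) *
          ENNReal.ofReal (F.dev 0 (x, t) ^ 2 * Phi 0 (x, t)) +
          (Metric.ball (0 : E) ((ρ + 1) * √(-t))).indicator
            (fun _ => ENNReal.ofReal (B * ε * (ρ + 2) ^ 2 / (-t) ^ 2)) x) ∂F.mu t := by
        refine lintegral_mono_ae ?_
        filter_upwards [ae_sl hF t] with x hx
        rw [Real.enorm_eq_ofReal_abs]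
        refine (ENNReal.ofReal_le_ofReal (uu_le hF.mcf.1 hf hρ hx ht hε)).trans
          (ENNReal.ofReal_add_le.trans (add_le_add ?_ ?_))
        · rw [ENNReal.ofReal_mul (by positivity)]
        · by_cases h : x ∈ Metric.ball (0 : E) ((ρ + 1) * √(-t))
          · simp only [indicator_of_mem h, le_refl]
          · simp only [indicator_of_notMem h, ENNReal.ofReal_zero, le_refl]
    _ = ENNReal.ofReal (B * (1 + ε⁻¹) * cG ρ) *
          ∫⁻ x, ENNReal.ofReal (F.dev 0 (x, t) ^ 2 * Phi 0 (x, t)) ∂F.mu t +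
          ENNReal.ofReal (B * ε * (ρ + 2) ^ 2 / (-t) ^ 2) *
            F.mu t (Metric.ball (0 : E) ((ρ + 1) * √(-t))) := by
        rw [lintegral_add_right _ (measurable_const.indicator measurableSet_ball),
          lintegral_const_mul' _ _ ENNReal.ofReal_ne_top, lintegral_indicator measurableSet_ball,
          setLIntegral_const]
    _ ≤ _ := by
        gcongr
        refine (mul_le_mul_right (hF.ar t 0 _ (by positivity)) _).trans ?_
        rw [← ENNReal.ofReal_mul (by positivity)]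
        refine ENNReal.ofReal_le_ofReal ?_
        rw [mul_pow, Real.sq_sqrt hτ.le]
        calc B * ε * (ρ + 2) ^ 2 / (-t) ^ 2 * (Λ * ((ρ + 1) ^ 2 * -t))
            ≤ B * ε * (ρ + 2) ^ 2 / (-t) ^ 2 * (|Λ| * ((ρ + 2) ^ 2 * -t)) := by
              gcongr
              · exact le_abs_self Λ
              · norm_num
          _ = _ := by field_simp

/-- the self-similar test integral at scale `r`: `r⁻² ∫ f (x / r) dμ_{-r²}` -/
def Jr (F : Mv) (f : E → ℝ) (r : ℝ) : ℝ := ∫ x, ss f (x, -r ^ 2) ∂F.mu (-r ^ 2)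

theorem speed_eps (hT : TransS) (hD : DivS) (hH : HuiskenS) (hI : Tm I) (hF : Fl F I Λ)
    (hf : Tf f ρ B) (hρ : 0 ≤ ρ) {r s Q : ℝ} (hr : 0 < r) (hrs : r ≤ s) (hQ : s ≤ Q * r)
    (hs : -s ^ 2 ∈ I) {ε : ℝ} (hε : 0 < ε) :
    |Jr F f r - Jr F f s| ≤ B * (1 + ε⁻¹) * cG ρ * (F.Fg 0 s - F.Fg 0 r) +
      B * ε * (ρ + 2) ^ 4 * |Λ| * Q ^ 2 := by
  have hB := hf.nonneg
  have hcG := cG_pos ρ
  have h2 : r ^ 2 ≤ s ^ 2 := pow_le_pow_left₀ hr.le hrs 2
  have h0 : 0 < r ^ 2 := by positivity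
  have hle : -s ^ 2 ≤ -r ^ 2 := by linarith
  have hsub : Icc (-s ^ 2) (-r ^ 2) ⊆ I := fun t ht => hI.up _ hs t ht.1 (by linarith [ht.2])
  have hD0 : 0 ≤ F.Fg 0 s - F.Fg 0 r := sub_nonneg.2 (Lim.fg_mono hH hI hF 0 hr hrs hs)
  have hst : F.stI (fun p => F.dev 0 p ^ 2 * Phi 0 p) (-s ^ 2) (-r ^ 2) =
      ENNReal.ofReal (F.Fg 0 s - F.Fg 0 r) := by
    have := (hH F I Λ hI.isOpen hF 0 (-s ^ 2) (-r ^ 2) hle (by simpa using h0) hsub).2
    simpa [Mv.Fg] using this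
  set J : ℝ → ℝ := fun t => ∫ x, ss f (x, t) ∂F.mu t with hJ
  have hd : ∀ t ∈ Icc (-s ^ 2) (-r ^ 2), HasDerivAt J (deriv J t) t := fun t ht =>
    (ss_deriv hT hD hI hF hf (hsub ht)).differentiableAt.hasDerivAt
  have hb : ∫⁻ t in Ioo (-s ^ 2) (-r ^ 2), ‖deriv J t‖ₑ ≤
      ENNReal.ofReal (B * (1 + ε⁻¹) * cG ρ * (F.Fg 0 s - F.Fg 0 r) +
        B * ε * (ρ + 2) ^ 4 * |Λ| * Q ^ 2) := by
    calc ∫⁻ t in Ioo (-s ^ 2) (-r ^ 2), ‖deriv J t‖ₑ
        ≤ ∫⁻ t in Ioo (-s ^ 2) (-r ^ 2), (ENNReal.ofReal (B * (1 + ε⁻¹) * cG ρ) *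
            ∫⁻ x, ENNReal.ofReal (F.dev 0 (x, t) ^ 2 * Phi 0 (x, t)) ∂F.mu t +
            ENNReal.ofReal (B * ε * (ρ + 2) ^ 4 * |Λ| / r ^ 2)) := by
          refine setLIntegral_mono' measurableSet_Ioo fun t ht => ?_
          rw [(ss_deriv hT hD hI hF hf (hsub (Ioo_subset_Icc_self ht))).deriv]
          refine (uu_int_le hF hf hρ (by linarith [ht.2]) hε).trans ?_
          gcongr
          linarith [ht.2]
      _ = ENNReal.ofReal (B * (1 + ε⁻¹) * cG ρ) * ENNReal.ofReal (F.Fg 0 s - F.Fg 0 r) +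
            ENNReal.ofReal (B * ε * (ρ + 2) ^ 4 * |Λ| / r ^ 2) *
              ENNReal.ofReal (-r ^ 2 - -s ^ 2) := by
          rw [lintegral_add_right _ measurable_const,
            lintegral_const_mul' _ _ ENNReal.ofReal_ne_top, setLIntegral_const, Real.volume_Ioo,
            ← hst, Mv.stI]
      _ ≤ _ := by
          rw [← ENNReal.ofReal_mul (by positivity), ← ENNReal.ofReal_mul (by positivity),
            ← ENNReal.ofReal_add (by positivity) (mul_nonneg (by positivity) (by linarith))]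
          refine ENNReal.ofReal_le_ofReal (add_le_add le_rfl ?_)
          have h3 : s ^ 2 ≤ (Q * r) ^ 2 := pow_le_pow_left₀ (by linarith) hQ 2
          calc B * ε * (ρ + 2) ^ 4 * |Λ| / r ^ 2 * (-r ^ 2 - -s ^ 2)
              ≤ B * ε * (ρ + 2) ^ 4 * |Λ| / r ^ 2 * (Q * r) ^ 2 := by
                gcongr
                linarith
            _ = _ := by field_simp
  have hi : IntervalIntegrable (deriv J) volume (-s ^ 2) (-r ^ 2) := by
    rw [intervalIntegrable_iff_integrableOn_Ioo_of_le hle]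
    exact ⟨(measurable_deriv J).aestronglyMeasurable, hb.trans_lt ENNReal.ofReal_lt_top⟩
  have e := intervalIntegral.integral_eq_sub_of_hasDerivAt
    (fun t ht => hd t (by rwa [uIcc_of_le hle] at ht)) hi
  rw [intervalIntegral.integral_of_le hle, integral_Ioc_eq_integral_Ioo] at e
  have h5 := (enorm_integral_le_lintegral_enorm _).trans hb
  rw [e, Real.enorm_eq_ofReal_abs, ENNReal.ofReal_le_ofReal_iff (by positivity)] at h5
  exact h5

/-- the constant of `speed` -/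
def cS (ρ Λ Q : ℝ) : ℝ := cG ρ + (ρ + 2) ^ 4 * |Λ| * Q ^ 2

theorem cS_pos (ρ Λ Q : ℝ) : 0 < cS ρ Λ Q := by
  have := cG_pos ρ
  unfold cS
  positivity

/-- **speed of test integrals** -/
theorem speed (hT : TransS) (hD : DivS) (hH : HuiskenS) (hI : Tm I) (hF : Fl F I Λ)
    (hf : Tf f ρ B) (hρ : 0 ≤ ρ) {r s Q : ℝ} (hr : 0 < r) (hrs : r ≤ s) (hQ : s ≤ Q * r)
    (hs : -s ^ 2 ∈ I) :
    |Jr F f r - Jr F f s| ≤
      cS ρ Λ Q * B * ((F.Fg 0 s - F.Fg 0 r) + √(F.Fg 0 s - F.Fg 0 r)) := by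
  have hB := hf.nonneg
  have hcG := cG_pos ρ
  have hD0 : 0 ≤ F.Fg 0 s - F.Fg 0 r := sub_nonneg.2 (Lim.fg_mono hH hI hF 0 hr hrs hs)
  have h := fun ε (hε : 0 < ε) => speed_eps hT hD hH hI hF hf hρ hr hrs hQ hs hε
  set D := F.Fg 0 s - F.Fg 0 r with hD'
  set c := (ρ + 2) ^ 4 * |Λ| * Q ^ 2 with hc
  have hc0 : 0 ≤ c := by positivity
  rcases hD0.eq_or_lt with h0 | h0
  · rw [← h0]
    simp only [Real.sqrt_zero, add_zero, mul_zero]
    refine le_of_forall_pos_le_add fun η hη => ?_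
    have h1 := h (η / (B * c + 1)) (by positivity)
    rw [← h0] at h1
    refine h1.trans ?_
    rw [mul_zero, zero_add, zero_add, show B * (η / (B * c + 1)) * (ρ + 2) ^ 4 * |Λ| * Q ^ 2 =
      η * (B * c / (B * c + 1)) by rw [hc]; ring]
    have : B * c / (B * c + 1) ≤ 1 := by
      rw [div_le_one (by positivity)]
      linarith
    nlinarith
  · have hs0 : 0 < √D := Real.sqrt_pos.2 h0
    have e : (√D)⁻¹ * D = √D := by
      rw [inv_mul_eq_div, div_eq_iff hs0.ne', Real.mul_self_sqrt hD0]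
    refine (h _ hs0).trans ?_
    calc B * (1 + (√D)⁻¹) * cG ρ * D + B * √D * (ρ + 2) ^ 4 * |Λ| * Q ^ 2
        = cG ρ * B * (D + (√D)⁻¹ * D) + c * B * √D := by rw [hc]; ring
      _ ≤ cG ρ * B * (D + √D) + c * B * (D + √D) := by
          rw [e]
          gcongr
          linarith
      _ = _ := by rw [cS, ← hc]; ring

end Crest.Agent.N250.Wk

end
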