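import Crest.Agent.N250.Lim.A
import Crest.Agent.N250.MP.Ret
import Crest.Agent.N250.Re.Basic

/-!
# Row 250 (helper92): first variation of self-similar test integrals (pointwise part)
-/

set_option autoImplicit false
open MeasureTheory Set Filter Topology
open scoped ContDiff InnerProductSpace
open Crest.GeometryTopology.MCF

noncomputable section

namespace Crest.Agent.N250.Wk

variable {F : Mv} {I : Set ℝ} {Λ : ℝ}

theorem closed_sl (hF : Fl F I Λ) (t : ℝ) : IsClosed (F.sl t) := by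
  refine isClosed_of_closure_subset fun x hx => ?_
  have h1 : (x, t) ∈ closure F.M :=
    map_mem_closure (f := fun y : E => (y, t)) (Continuous.prodMk_left t) hx fun _ h => h
  obtain ⟨y, hy⟩ : (F.sl t).Nonempty := closure_nonempty_iff.1 ⟨x, hx⟩
  exact hF.proper _ h1 ⟨trivial, hF.time (y, t) hy⟩

theorem fin_mu (h : F.AR Λ) (t : ℝ) : IsFiniteMeasureOnCompacts (F.mu t) := by
  refine ⟨fun K hK => ?_⟩
  obtain ⟨R, hR, hs⟩ := hK.isBounded.subset_ball_lt 0 (0 : E)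
  exact ((measure_mono hs).trans (h t 0 R hR)).trans_lt ENNReal.ofReal_lt_top

theorem ae_sl (hF : Fl F I Λ) (t : ℝ) : ∀ᵐ x ∂F.mu t, (x, t) ∈ F.M :=
  ae_restrict_mem (closed_sl hF t).measurableSet

/-- continuous functions with bounded support on a slice are integrable -/
theorem intg (hF : Fl F I Λ) {u : ST → ℝ} (hu : ContinuousOn u F.M) {t R : ℝ}
    (h0 : ∀ x, (x, t) ∈ F.M → R ≤ ‖x‖ → u (x, t) = 0) :
    Integrable (fun x => u (x, t)) (F.mu t) := by
  have := fin_mu hF.ar t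
  have hK : IsCompact (F.sl t ∩ Metric.closedBall 0 R) :=
    (isCompact_closedBall 0 R).inter_left (closed_sl hF t)
  have h1 : IntegrableOn (fun x => u (x, t)) (F.sl t ∩ Metric.closedBall 0 R) (F.mu t) :=
    ContinuousOn.integrableOn_compact hK
      (hu.comp (Continuous.prodMk_left t).continuousOn fun x hx => hx.1)
  refine ((integrable_indicator_iff hK.measurableSet).2 h1).congr ?_
  filter_upwards [ae_sl hF t] with x hx
  by_cases hR : x ∈ Metric.closedBall (0 : E) R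
  · exact indicator_of_mem (show x ∈ F.sl t ∩ Metric.closedBall 0 R from ⟨hx, hR⟩) _
  · rw [indicator_of_notMem (fun h => hR h.2), h0 x hx]
    rw [mem_closedBall_zero_iff] at hR
    linarith

theorem cs_of (hF : Fl F I Λ) {u : ST → ℝ} {a b R : ℝ} {J : Set ℝ} (hab : Icc a b ⊆ I)
    (hJ : J ⊆ Icc a b) (h0 : ∀ p ∈ F.M, p.2 ∈ J → R ≤ ‖p.1‖ → u p = 0) : F.CS u J := by
  refine ⟨closure F.M ∩ Metric.closedBall 0 R ×ˢ Icc a b,
    ((isCompact_closedBall 0 R).prod isCompact_Icc).inter_left isClosed_closure,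
    fun p hp => hF.proper p hp.1 ⟨trivial, hab hp.2.2⟩, fun p hp h1 h2 => h0 p hp h1 ?_⟩
  by_contra h
  exact h2 ⟨subset_closure hp, mem_closedBall_zero_iff.2 (le_of_not_ge h), hJ h1⟩

/-- the self-similar extension `f (x / √(-t)) / (-t)` of a test function -/
def ss (f : E → ℝ) (p : ST) : ℝ := f ((√(-p.2))⁻¹ • p.1) / (-p.2)

variable {f : E → ℝ}

theorem ss_at (hf : ContDiff ℝ ∞ f) {p : ST} (hp : p.2 < 0) : ContDiffAt ℝ ∞ (ss f) p := by
  have h1 : ContDiffAt ℝ ∞ (fun q : ST => -q.2) p := contDiffAt_snd.neg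
  have h0 : -p.2 ≠ 0 := by linarith
  have h2 : ContDiffAt ℝ ∞ (fun q : ST => (√(-q.2))⁻¹) p :=
    (h1.sqrt h0).inv (Real.sqrt_ne_zero'.2 (by linarith))
  exact (hf.contDiffAt.comp p (h2.smul contDiffAt_fst)).div h1 h0

theorem ss_diff (hf : ContDiff ℝ ∞ f) {p : ST} (hp : p.2 < 0) : DifferentiableAt ℝ (ss f) p :=
  (ss_at hf hp).differentiableAt (by simp)

/-- spatial derivative -/
theorem ss_sp (hf : ContDiff ℝ ∞ f) {p : ST} (hp : p.2 < 0) (v : E) :
    fderiv ℝ (ss f) p (v, 0) =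
      (√(-p.2))⁻¹ * fderiv ℝ f ((√(-p.2))⁻¹ • p.1) v / (-p.2) := by
  have h1 : HasFDerivAt (fun y : E => ss f (y, p.2))
      ((fderiv ℝ (ss f) p).comp (ContinuousLinearMap.inl ℝ E ℝ)) p.1 :=
    HasFDerivAt.comp p.1 (f := fun y : E => (y, p.2)) (ss_diff hf hp).hasFDerivAt
      (hasFDerivAt_prodMk_left p.1 p.2)
  have h2 : HasFDerivAt (fun y : E => f ((√(-p.2))⁻¹ • y))
      ((fderiv ℝ f ((√(-p.2))⁻¹ • p.1)).comp ((√(-p.2))⁻¹ • ContinuousLinearMap.id ℝ E)) p.1 :=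
    HasFDerivAt.comp p.1 (f := fun y : E => (√(-p.2))⁻¹ • y)
      ((hf.differentiable (by simp)) _).hasFDerivAt
      ((√(-p.2))⁻¹ • ContinuousLinearMap.id ℝ E).hasFDerivAt
  have h3 := h2.mul_const (-p.2)⁻¹
  have h4 := h1.unique (by simpa only [ss, div_eq_mul_inv] using h3)
  have := congrArg (fun L : E →L[ℝ] ℝ => L v) h4
  simp only [ContinuousLinearMap.comp_apply, ContinuousLinearMap.inl_apply,
    smul_apply, ContinuousLinearMap.id_apply, map_smul, smul_eq_mul] at this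
  rw [this]
  ring

/-- Euler relation of the parabolic homogeneity -/
theorem ss_euler (hf : ContDiff ℝ ∞ f) {p : ST} (hp : p.2 < 0) :
    fderiv ℝ (ss f) p (p.1, 2 * p.2) = -2 * ss f p := by
  have hc : HasDerivAt (fun l : ℝ => ((l • p.1, l ^ 2 * p.2) : ST)) (p.1, 2 * p.2) 1 := by
    refine HasDerivAt.prodMk ?_ ?_
    · simpa using (hasDerivAt_id (1 : ℝ)).smul_const p.1
    · simpa using (hasDerivAt_pow 2 (1 : ℝ)).mul_const p.2
  have h1 : HasDerivAt (fun l : ℝ => ss f (l • p.1, l ^ 2 * p.2))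
      (fderiv ℝ (ss f) p (p.1, 2 * p.2)) 1 := by
    have hd : HasFDerivAt (ss f) (fderiv ℝ (ss f) p) (((1 : ℝ) • p.1, (1 : ℝ) ^ 2 * p.2) : ST) := by
      simpa using (ss_diff hf hp).hasFDerivAt
    exact hd.comp_hasDerivAt (1 : ℝ) hc
  have h2 : HasDerivAt (fun l : ℝ => (l ^ 2)⁻¹ * ss f p) (-2 * ss f p) 1 := by
    have := ((hasDerivAt_pow 2 (1 : ℝ)).inv (by norm_num)).mul_const (ss f p)
    exact this.congr_deriv (by norm_num)
  refine h1.unique (h2.congr_of_eventuallyEq ?_)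
  filter_upwards [lt_mem_nhds (show (0 : ℝ) < 1 from one_pos)] with l hl
  have e1 : √(-(l ^ 2 * p.2)) = l * √(-p.2) := by
    rw [show -(l ^ 2 * p.2) = l ^ 2 * (-p.2) by ring, Real.sqrt_mul (by positivity),
      Real.sqrt_sq hl.le]
  have hs : √(-p.2) ≠ 0 := Real.sqrt_ne_zero'.2 (by linarith)
  have hp0 : p.2 ≠ 0 := hp.ne
  simp only [ss, e1, smul_smul]
  rw [show (l * √(-p.2))⁻¹ * l = (√(-p.2))⁻¹ by field_simp]
  field_simp

/-- the normal derivative of `ss f` -/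
def gn (F : Mv) (f : E → ℝ) (p : ST) : ℝ := fderiv ℝ (ss f) p (F.n p, 0)

/-- the component fields `ss f · x_a` -/
def sx (f : E → ℝ) (a : Fin 3) (p : ST) : ℝ := ss f p * p.1 a

theorem co_at (a : Fin 3) (p : ST) :
    HasFDerivAt (fun q : ST => q.1 a)
      ((EuclideanSpace.proj a : E →L[ℝ] ℝ).comp (ContinuousLinearMap.fst ℝ E ℝ)) p :=
  ((EuclideanSpace.proj a : E →L[ℝ] ℝ).comp (ContinuousLinearMap.fst ℝ E ℝ)).hasFDerivAt

theorem sx_at (hf : ContDiff ℝ ∞ f) (a : Fin 3) {p : ST} (hp : p.2 < 0) :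
    ContDiffAt ℝ ∞ (sx f a) p :=
  (ss_at hf hp).mul
    ((EuclideanSpace.proj a : E →L[ℝ] ℝ).comp (ContinuousLinearMap.fst ℝ E ℝ)).contDiff.contDiffAt

theorem D_sx (hF : F.Reg) (hf : ContDiff ℝ ∞ f) (a : Fin 3) {p : ST} (hM : p ∈ F.M)
    (hp : p.2 < 0) : F.D a (sx f a) p =
      p.1 a * fderiv ℝ (ss f) p (F.PL p (ee a), 0) + ss f p * F.PL p (ee a) a := by
  have h1 : HasFDerivAt (sx f a) _ p := (ss_diff hf hp).hasFDerivAt.mul (co_at a p)
  rw [MP.D_eq hF hM h1.differentiableAt (EventuallyEq.refl _ _), h1.fderiv]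
  simp [add_comm]

theorem sum_D_sx (hF : F.Reg) (hf : ContDiff ℝ ∞ f) {p : ST} (hM : p ∈ F.M) (hp : p.2 < 0) :
    ∑ a, F.D a (sx f a) p =
      fderiv ℝ (ss f) p (p.1, 0) - F.xn 0 p * gn F f p + 2 * ss f p := by
  simp only [D_sx hF hf _ hM hp, Finset.sum_add_distrib]
  have e1 : ∑ a, p.1 a * fderiv ℝ (ss f) p (F.PL p (ee a), 0) =
      fderiv ℝ (ss f) p (p.1, 0) - F.xn 0 p * gn F f p := by
    have : ((p.1, 0) : ST) - F.xn 0 p • ((F.n p, 0) : ST) =
        ∑ a, p.1 a • ((F.PL p (ee a), 0) : ST) := by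
      ext b
      · simp [Mv.xn, Mv.PL, Fin.sum_univ_three, inner_eq_sum]
        fin_cases b <;> simp <;> ring
      · simp [Prod.snd_sum]
    rw [gn, ← smul_eq_mul, ← map_smul, ← map_sub, this, map_sum]
    simp only [map_smul, smul_eq_mul]
  have e2 : ∑ a, ss f p * F.PL p (ee a) a = 2 * ss f p := by
    have hn := Tr.n_n hF hM
    rw [inner_eq_sum] at hn
    rw [← Finset.mul_sum, mul_comm]
    congr 1
    simp only [Mv.PL, inner_ee, Fin.sum_univ_three] at hn ⊢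
    simp
    linarith
  rw [e1, e2]

/-- the integrand of the first variation, split into the deviation term and a divergence -/
theorem split (hF : F.IsMCF) (hf : ContDiff ℝ ∞ f) {p : ST} (hM : p ∈ F.M) (hp : p.2 < 0) :
    F.Dt (ss f) p + ss f p * F.V p * F.H p = -(F.dev 0 p * (gn F f p + ss f p * F.H p)) +
      (2 * -p.2)⁻¹ * ∑ a, (F.D a (sx f a) p - sx f a p * F.H p * F.nu a p) := by
  have e0 : ∑ a, sx f a p * F.H p * F.nu a p = ss f p * F.H p * F.xn 0 p := by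
    simp only [sx, Mv.xn, Mv.nu, sub_zero, inner_eq_sum, Fin.sum_univ_three]
    ring
  have e1 := ss_euler hf hp
  have e2 : fderiv ℝ (ss f) p (p.1, 2 * p.2) =
      fderiv ℝ (ss f) p (p.1, 0) + 2 * p.2 * fderiv ℝ (ss f) p (0, 1) := by
    rw [← smul_eq_mul (2 * p.2), ← map_smul, ← map_add]
    simp
  have e3 : F.Dt (ss f) p = F.V p * gn F f p + fderiv ℝ (ss f) p (0, 1) := by
    rw [MP.Dt_eq hF.1 hM (ss_diff hf hp) (EventuallyEq.refl _ _), gn, ← smul_eq_mul, ← map_smul,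
      ← map_add]
    simp
  have hp0 : p.2 ≠ 0 := hp.ne
  have e4 : fderiv ℝ (ss f) p (0, 1) =
      (2 * -p.2)⁻¹ * (fderiv ℝ (ss f) p (p.1, 0) + 2 * ss f p) := by
    field_simp
    linarith
  rw [Finset.sum_sub_distrib, sum_D_sx hF.1 hf hM hp, e0, e3, e4, hF.2 p hM]
  simp only [Mv.dev, Prod.fst_zero, Prod.snd_zero, zero_sub]
  field_simp
  ring

end Crest.Agent.N250.Wk

end
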